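import Vale.Agent.Lib.P050.Chain

/-!
# P050 (Sidorenko's conjecture): a class of targets `G` for which the inequality holds for
every bipartite `H`
-/

namespace Vale.Agent.Results.P050.MonotoneTargets

open Vale.Agent.P050 SimpleGraph

theorem result :
    -- (1) monotone bipartite targets over finite distributive lattices
    (∀ (X Y : Type) [DistribLattice X] [DistribLattice Y] [Fintype X] [Fintype Y] [Nonempty X]
        [Nonempty Y] (R : X → Y → Prop),
        (∀ x x' y y', x ≤ x' → y ≤ y' → R x y → R x' y') → SidTarget (bip R)) ∧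
    -- (2) chain graphs
    (∀ (W : Type) [Finite W] [Nonempty W] (G : SimpleGraph W), IsChain G → SidTarget G) ∧
    -- (3) the bipartite disjointness graph of the subsets of a `d`-set
    (∀ d : ℕ, SidTarget (bip (fun s t : Finset (Fin d) => Disjoint s t))) ∧
    -- (4) closure under disjoint unions and tensor products
    (∀ (W₁ W₂ : Type) [Finite W₁] [Finite W₂] [Nonempty W₁] [Nonempty W₂]
        (G₁ : SimpleGraph W₁) (G₂ : SimpleGraph W₂), SidTarget G₁ → SidTarget G₂ →
        SidTarget (G₁ ⊕g G₂) ∧ SidTarget (tensor G₁ G₂)) := by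
  refine ⟨fun X Y _ _ _ _ _ _ R hR => sidTarget_bip R hR,
    fun W _ _ G hG => sidTarget_of_isChain G hG, fun d => ?_,
    fun W₁ W₂ _ _ _ _ G₁ G₂ h₁ h₂ => ⟨sidTarget_sum G₁ G₂ h₁ h₂, sidTarget_tensor G₁ G₂ h₁ h₂⟩⟩
  exact sidTarget_bip (X := (Finset (Fin d))ᵒᵈ) (Y := (Finset (Fin d))ᵒᵈ)
    (fun s t => Disjoint (OrderDual.ofDual s) (OrderDual.ofDual t))
    (fun x x' y y' hx hy h => Disjoint.mono hx hy h)

end Vale.Agent.Results.P050.MonotoneTargets
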