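import Vale.Agent.Lib.P050.Chain
import Vale.Agent.Lib.P050.PendantMain

/-!
# P050 (Sidorenko's conjecture): classes of targets `G` for which the inequality holds for
every bipartite `H`
-/

namespace Vale.Agent.Results.P050.TargetClasses

open Vale.Agent.P050 SimpleGraph

theorem result :
    -- (1) monotone bipartite targets over finite distributive lattices
    (∀ (X Y : Type) [DistribLattice X] [DistribLattice Y] [Fintype X] [Fintype Y] [Nonempty X]
        [Nonempty Y] (R : X → Y → Prop),
        (∀ x x' y y', x ≤ x' → y ≤ y' → R x y → R x' y') → SidTarget (bip R)) ∧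
    -- (2) chain graphs
    (∀ (W : Type) [Finite W] [Nonempty W] (G : SimpleGraph W), IsChain G → SidTarget G) ∧
    -- (3) every `y` is adjacent to all of `X` or to at most one vertex of `X`
    (∀ (X Y : Type) [Fintype X] [Fintype Y] [Nonempty X] [Nonempty Y] (R : X → Y → Prop),
        (∀ y, (∀ x, R x y) ∨ (∀ x x', R x y → R x' y → x = x')) → SidTarget (bip R)) ∧
    -- (4) bipartite targets with a side of two vertices
    (∀ (Y : Type) [Fintype Y] [Nonempty Y] (R : Bool → Y → Prop), SidTarget (bip R)) ∧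
    -- (5) closure under disjoint unions and tensor products
    (∀ (W₁ W₂ : Type) [Finite W₁] [Finite W₂] [Nonempty W₁] [Nonempty W₂]
        (G₁ : SimpleGraph W₁) (G₂ : SimpleGraph W₂), SidTarget G₁ → SidTarget G₂ →
        SidTarget (G₁ ⊕g G₂) ∧ SidTarget (tensor G₁ G₂)) :=
  ⟨fun _ _ _ _ _ _ _ _ R hR => sidTarget_bip R hR,
    fun _ _ _ G hG => sidTarget_of_isChain G hG,
    fun _ _ _ _ _ _ R hR => sidTarget_pendant R hR,
    fun _ _ _ R => sidTarget_pendant R (isPendantRel_bool R),
    fun _ _ _ _ _ _ G₁ G₂ h₁ h₂ => ⟨sidTarget_sum G₁ G₂ h₁ h₂, sidTarget_tensor G₁ G₂ h₁ h₂⟩⟩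

end Vale.Agent.Results.P050.TargetClasses
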